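import Mathlib

/-!
# P271 / H58 / Mono : algebraically independent elements of degree one bound the Hilbert function
-/

namespace Vale.Agent.P271.Drop

open MvPolynomial

/-- If `z` is an algebraically independent family of `d` elements of `B`, `M` is a finite
dimensional subspace containing all the monomials of degree `t` in the `z i`, then
`multichoose d t ≤ dim M`. -/
theorem multichoose_le_finrank {k B : Type*} [Field k] [CommRing B] [Algebra k B]
    {σ : Type*} [Fintype σ] (z : σ → B) (hz : AlgebraicIndependent k z) (t : ℕ)
    (M : Submodule k B) [Module.Finite k M]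
    (hM : ∀ s : Multiset σ, s.card = t → (s.map z).prod ∈ M) :
    Nat.multichoose (Fintype.card σ) t ≤ Module.finrank k M := by
  classical
  -- the monomials are linearly independent
  let e : Sym σ t → (σ →₀ ℕ) := fun s => Multiset.toFinsupp (s : Multiset σ)
  have he : Function.Injective e := by
    intro s s' h
    exact Subtype.ext (Multiset.toFinsupp.injective h)
  have h1 : LinearIndependent k (fun s : Sym σ t => basisMonomials σ k (e s)) :=
    (basisMonomials σ k).linearIndependent.comp e he
  have h2 : LinearIndependent k
      (fun s : Sym σ t => (aeval z : MvPolynomial σ k →ₐ[k] B) (basisMonomials σ k (e s))) :=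
    h1.map' (aeval z : MvPolynomial σ k →ₐ[k] B).toLinearMap
      (LinearMap.ker_eq_bot.mpr hz)
  have h3 : ∀ s : Sym σ t, (aeval z : MvPolynomial σ k →ₐ[k] B) (basisMonomials σ k (e s)) =
      ((s : Multiset σ).map z).prod := by
    intro s
    rw [coe_basisMonomials, aeval_monomial, map_one, one_mul, Finsupp.prod]
    rw [Finset.prod_multiset_map_count]
    have : (e s).support = (s : Multiset σ).toFinset := by
      ext i; simp [e]
    rw [this]
    refine Finset.prod_congr rfl (fun i _ => ?_)
    simp [e, Multiset.toFinsupp_apply]
  have h4 : LinearIndependent k (fun s : Sym σ t => (⟨((s : Multiset σ).map z).prod,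
      hM _ s.2⟩ : M)) := by
    apply LinearIndependent.of_comp M.subtype
    convert h2 using 1
    ext s
    rw [h3]
    rfl
  have h5 := h4.fintype_card_le_finrank
  rwa [Sym.card_sym_eq_multichoose] at h5

end Vale.Agent.P271.Drop
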