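import Vale.Agent.P271.H58.Drop
import Vale.Agent.P271.H58.Mono

/-!
# P271 / H58 / DropGraded : lower bound of the Hilbert function of `A ⧸ P`, `P` minimal over `(f)`
-/

namespace Vale.Agent.P271.Drop

open MvPolynomial

theorem multiset_prod_mem {k A : Type*} [Field k] [CommRing A] [Algebra k A]
    (𝒜 : ℕ → Submodule k A) [GradedAlgebra 𝒜] {σ : Type*} (y : σ → A) (hy : ∀ i, y i ∈ 𝒜 1)
    (s : Multiset σ) : (s.map y).prod ∈ 𝒜 s.card := by
  induction s using Multiset.induction with
  | empty => simpa using SetLike.GradedOne.one_mem (A := 𝒜)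
  | cons a s ih =>
    rw [Multiset.map_cons, Multiset.prod_cons, Multiset.card_cons, add_comm]
    exact SetLike.GradedMul.mul_mem (hy a) ih

/-- The Hilbert function of the quotient of the graded algebra `A` by the ideal `P`. -/
noncomputable def hilb {k A : Type*} [Field k] [CommRing A] [Algebra k A]
    (𝒜 : ℕ → Submodule k A) (P : Ideal A) (t : ℕ) : ℕ :=
  Module.finrank k ((𝒜 t).map (Ideal.Quotient.mkₐ k P).toLinearMap)

/-- If `A ⧸ P` contains `d` algebraically independent classes of elements of degree one, then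
`multichoose d t ≤ hilb P t`. -/
theorem multichoose_le_hilb {k A : Type*} [Field k] [CommRing A] [Algebra k A]
    (𝒜 : ℕ → Submodule k A) [GradedAlgebra 𝒜] [∀ t, Module.Finite k (𝒜 t)] {σ : Type*}
    [Fintype σ] (y : σ → A) (hy : ∀ i, y i ∈ 𝒜 1) (P : Ideal A)
    (hind : AlgebraicIndependent k (fun i => Ideal.Quotient.mk P (y i))) (t : ℕ) :
    Nat.multichoose (Fintype.card σ) t ≤ hilb 𝒜 P t := by
  have : Module.Finite k ((𝒜 t).map (Ideal.Quotient.mkₐ k P).toLinearMap) := inferInstance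
  refine multichoose_le_finrank _ hind t _ (fun s hs => ?_)
  refine ⟨(s.map y).prod, ?_, ?_⟩
  · rw [← hs]; exact multiset_prod_mem 𝒜 y hy s
  · change Ideal.Quotient.mk P (s.map y).prod = _
    rw [map_multiset_prod, Multiset.map_map]
    rfl

/-- **DROP.** `A` a graded noetherian domain over `k`, integral over `k[y_i]` with `y_i` algebraically
independent of degree one, `f ≠ 0`, `P` a minimal prime over `(f)`. Then the Hilbert function of
`A ⧸ P` is at least the Hilbert function of the polynomial ring in one variable less. -/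
theorem drop_graded {k A : Type*} [Field k] [CommRing A] [IsDomain A] [IsNoetherianRing A]
    [Algebra k A] (𝒜 : ℕ → Submodule k A) [GradedAlgebra 𝒜] [∀ t, Module.Finite k (𝒜 t)]
    {σ : Type*} [Fintype σ] (y : σ → A) (hy1 : ∀ i, y i ∈ 𝒜 1) (hy : AlgebraicIndependent k y)
    (hint : ∀ a : A, IsIntegral (Algebra.adjoin k (Set.range y)) a)
    {f : A} (hf : f ≠ 0) {P : Ideal A} (hP : P ∈ (Ideal.span {f}).minimalPrimes) (t : ℕ) :
    Nat.multichoose (Fintype.card σ - 1) t ≤ hilb 𝒜 P t := by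
  classical
  obtain ⟨i, hi⟩ := drop_core y hy hint hf hP
  have h := multichoose_le_hilb 𝒜 (fun j : {j : σ // j ≠ i} => y j) (fun j => hy1 j) P hi t
  have hcard : Fintype.card {j : σ // j ≠ i} = Fintype.card σ - 1 := by
    simp
  rwa [hcard] at h

/-- Relative version: `Q` a prime ideal such that `A ⧸ Q` is integral over `k[y_i]`, `y_i` of
degree one and algebraically independent modulo `Q`; `f ∉ Q`; `P` minimal over `Q + (f)`. -/
theorem drop_graded_rel {k A : Type*} [Field k] [CommRing A] [IsNoetherianRing A]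
    [Algebra k A] (𝒜 : ℕ → Submodule k A) [GradedAlgebra 𝒜] [∀ t, Module.Finite k (𝒜 t)]
    (Q : Ideal A) [Q.IsPrime]
    {σ : Type*} [Fintype σ] (y : σ → A) (hy1 : ∀ i, y i ∈ 𝒜 1)
    (hy : AlgebraicIndependent k (fun i => Ideal.Quotient.mk Q (y i)))
    (hint : ∀ a : A ⧸ Q, IsIntegral
      (Algebra.adjoin k (Set.range (fun i => Ideal.Quotient.mk Q (y i)))) a)
    {f : A} (hf : f ∉ Q) {P : Ideal A} (hP : P ∈ (Q ⊔ Ideal.span {f}).minimalPrimes) (t : ℕ) :
    Nat.multichoose (Fintype.card σ - 1) t ≤ hilb 𝒜 P t := by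
  classical
  have hPp : P.IsPrime := hP.1.1
  have hQP : Q ≤ P := le_sup_left.trans hP.1.2
  -- pass to `A ⧸ Q`
  set P' : Ideal (A ⧸ Q) := P.map (Ideal.Quotient.mk Q) with hP'
  have hker : RingHom.ker (Ideal.Quotient.mk Q) ≤ P := by rw [Ideal.mk_ker]; exact hQP
  have hP'p : P'.IsPrime := Ideal.map_isPrime_of_surjective Ideal.Quotient.mk_surjective hker
  have hcomap : P'.comap (Ideal.Quotient.mk Q) = P := by
    rw [hP', Ideal.comap_map_of_surjective _ Ideal.Quotient.mk_surjective]
    rw [sup_eq_left]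
    exact hker
  have hmin : P' ∈ (Ideal.span {Ideal.Quotient.mk Q f}).minimalPrimes := by
    refine ⟨⟨hP'p, ?_⟩, ?_⟩
    · rw [Ideal.span_singleton_le_iff_mem]
      exact Ideal.mem_map_of_mem _ (hP.1.2 (Ideal.mem_sup_right (Ideal.mem_span_singleton_self f)))
    · rintro R ⟨hR, hfR⟩ hRP'
      have h1 : Q ⊔ Ideal.span {f} ≤ R.comap (Ideal.Quotient.mk Q) := by
        rw [sup_le_iff]
        constructor
        · intro x hx
          rw [Ideal.mem_comap, Ideal.Quotient.eq_zero_iff_mem.mpr hx]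
          exact R.zero_mem
        · rw [Ideal.span_singleton_le_iff_mem, Ideal.mem_comap]
          rwa [Ideal.span_singleton_le_iff_mem] at hfR
      have h2 : R.comap (Ideal.Quotient.mk Q) ≤ P := by
        rw [← hcomap]; exact Ideal.comap_mono hRP'
      have h3 := hP.2 ⟨hR.comap _, h1⟩ h2
      rw [hP']
      exact Ideal.map_le_iff_le_comap.mpr h3
  have hf' : Ideal.Quotient.mk Q f ≠ 0 := by
    rwa [Ne, Ideal.Quotient.eq_zero_iff_mem]
  obtain ⟨i, hi⟩ := drop_core (k := k) _ hy hint hf' hmin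
  -- transfer the independence from `(A ⧸ Q) ⧸ P'` to `A ⧸ P`
  have hle : P ≤ P'.comap (Ideal.Quotient.mk Q) := hcomap.ge
  let φ : A ⧸ P →ₐ[k] (A ⧸ Q) ⧸ P' :=
    Ideal.quotientMapₐ P' (Ideal.Quotient.mkₐ k Q) hle
  have hind : AlgebraicIndependent k (fun j : {j : σ // j ≠ i} => Ideal.Quotient.mk P (y j)) := by
    apply AlgebraicIndependent.of_comp φ
    exact hi
  have h := multichoose_le_hilb 𝒜 (fun j : {j : σ // j ≠ i} => y j) (fun j => hy1 j) P hind t
  have hcard : Fintype.card {j : σ // j ≠ i} = Fintype.card σ - 1 := by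
    simp
  rwa [hcard] at h

end Vale.Agent.P271.Drop
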