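import Vale.Agent.P271.Main.Defs
import Vale.Agent.P271.Ver.Cone
import Vale.Agent.P271.Hilb.GInt
import Vale.Agent.P271.Hilb.UAsym
import Vale.Agent.P271.H989.Np1

/-!
# P271 / H58 / Geo : the primes of a graded cone through a point (geometry fields of `Main.Blocks`)

`C : GCone n`, `z` a point of the cone different from the vertex, `m1` a good Veronese index.
-/

namespace Vale.Agent.P271.H58

open Module Filter Topology
open Vale.Agent.P271.Sch Vale.Agent.P271.Deg Vale.Agent.P271.Drop Vale.Agent.P271.Ver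
open Vale.Agent.P271.Main

variable {n : ℕ} {C : GCone n} {z : C.Pt} {m1 : ℕ}

theorem pz_isPrime : (pz z).IsPrime :=
  Ideal.IsPrime.homogeneousCore (RingHom.ker_isPrime _)

theorem pz_isHomogeneous : (pz z).IsHomogeneous C.A :=
  ((RingHom.ker z).homogeneousCore C.A).isHomogeneous

theorem pz_le : pz z ≤ RingHom.ker z := Ideal.toIdeal_homogeneousCore_le _ _

theorem hprime_pz : HPrime z (pz z) := ⟨pz_isPrime, pz_isHomogeneous, le_rfl⟩

theorem mem_pz_of_homogeneous {s : C.R} {i : ℕ} (hs : s ∈ C.A i) (h0 : z s = 0) : s ∈ pz z :=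
  Ideal.mem_homogeneousCore_of_homogeneous_of_mem ⟨i, hs⟩ h0

/-- A homogeneous prime which vanishes at `z` is contained in `pz z`. -/
theorem le_pz {P : Ideal C.R} (hP : P.IsHomogeneous C.A) (h : P ≤ RingHom.ker z) : P ≤ pz z := by
  have h1 := Ideal.homogeneousCore_mono C.A h
  have h2 : (P.homogeneousCore C.A).toIdeal = P := hP.toIdeal_homogeneousCore_eq_self
  rw [← h2]
  exact h1

theorem rel (h : VerOK C.A m1) (hz : GCone.NV z) {P : Ideal C.R} (hP : P ≤ pz z) :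
    ¬ (C.A m1 : Set C.R) ⊆ P := by
  intro hsub
  obtain ⟨s, hs, hs0⟩ := exists_ne_zero_of_NV h hz
  exact hs0 (pz_le (hP (hsub hs)))

theorem rel' (hz : GCone.NV z) {P : Ideal C.R} (hP : P ≤ pz z) : ∃ j > 0, ∃ s ∈ C.A j, s ∉ P := by
  obtain ⟨k₀, hk₀, s, hs, hs0⟩ := hz
  exact ⟨k₀, hk₀, s, hs, fun h => hs0 (pz_le (hP h))⟩

theorem hprime_bot : HPrime z (⊥ : Ideal C.R) :=
  ⟨Ideal.isPrime_bot, Ideal.IsHomogeneous.bot C.A, bot_le⟩

/-- [DEG] strict inclusion: the exponent drops. -/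
theorem pd_lt (h : VerOK C.A m1) (hz : GCone.NV z) (P Q : Ideal C.R) (hP : HPrime z P)
    (hQ : HPrime z Q) (hPQ : P < Q) {d D e E : ℕ} (hD : 1 ≤ D) (hE : 1 ≤ E)
    (h1 : TwoSided d D (hilb (VA C m1) P)) (h2 : TwoSided e E (hilb (VA C m1) Q)) : e < d :=
  Ver.exponent_lt h hP.prime hP.hom hQ.prime hQ.hom hPQ (rel h hz hQ.le) hD hE h1 h2

/-- Hilbert data of a prime through `z`. -/
theorem pd' (h : VerOK C.A m1) (hz : GCone.NV z) {P : Ideal C.R} (hP : HPrime z P) :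
    ∃ d ℓ : ℕ, 1 ≤ ℓ ∧ TwoSided d (ℓ * m1 ^ d) (hilb (VA C m1) P) := by
  obtain ⟨d, y, D, -, -, -, hD, hTS⟩ := Ver.prime_data h hP.prime hP.hom (rel h hz hP.le)
  have := C.finiteType
  have := hP.prime
  obtain ⟨ℓ, hℓ, hDℓ, -⟩ := Hilb.veronese_degree (P := P) C.A C.free
    (fun a ha => by
      obtain ⟨c, hc⟩ := C.zero a ha
      exact ⟨c, hc⟩) (rel' hz hP.le) h.pos hD hTS
  exact ⟨d, ℓ, hℓ, hDℓ ▸ hTS⟩

/-- [HILBI, VER, DEG] -/
theorem pd (h : VerOK C.A m1) (hz : GCone.NV z) (P : Ideal C.R) (hP : HPrime z P)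
    (hne : P ≠ pz z) :
    ∃ d ℓ : ℕ, 1 ≤ d ∧ 1 ≤ ℓ ∧ TwoSided d (ℓ * m1 ^ d) (hilb (VA C m1) P) := by
  obtain ⟨d, ℓ, hℓ, hTS⟩ := pd' h hz hP
  obtain ⟨e, ℓ', hℓ', hTS'⟩ := pd' h hz hprime_pz
  have h1 := h.pos
  have h2 := pd_lt h hz P (pz z) hP hprime_pz (lt_of_le_of_ne hP.le hne)
    (Nat.mul_pos hℓ (pow_pos h1 _)) (Nat.mul_pos hℓ' (pow_pos h1 _)) hTS hTS'
  exact ⟨d, ℓ, by omega, hℓ, hTS⟩

/-- The exponent of the zero ideal is `n`. -/
theorem pd_bot (h : VerOK C.A m1) (hz : GCone.NV z) {d D : ℕ} (hD : 1 ≤ D)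
    (hTS : TwoSided d D (hilb (VA C m1) (⊥ : Ideal C.R))) : d = n := by
  have := C.finiteType
  have hm := h.pos
  have hbot : (⊥ : Ideal C.R).IsPrime := Ideal.isPrime_bot
  obtain ⟨d', y, D', hy, hind, hint, hD', hTS'⟩ := Ver.prime_data h Ideal.isPrime_bot
    (Ideal.IsHomogeneous.bot C.A) (rel h hz (z := z) bot_le)
  obtain ⟨rfl, -⟩ := hTS.unique hTS' hD hD'
  obtain ⟨N0, hN0, hN⟩ := H989.exists_noether C z hz
  obtain ⟨x, hx, -, hfin, hinj, -⟩ := hN N0 hN0 dvd_rfl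
  -- two transcendence bases
  have hy' : IsTranscendenceBasis ℂ (fun i => Ideal.Quotient.mk (⊥ : Ideal C.R) (y i)) := by
    have : Nontrivial (C.R ⧸ (⊥ : Ideal C.R)) := Ideal.Quotient.nontrivial_iff.mpr hbot.ne_top
    rw [hind.isTranscendenceBasis_iff_isAlgebraic]
    exact ⟨fun a => (hint a).isAlgebraic⟩
  have hx' : IsTranscendenceBasis ℂ x := by
    have hxi : AlgebraicIndependent ℂ x := hinj
    rw [hxi.isTranscendenceBasis_iff_isAlgebraic]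
    refine ⟨fun a => IsIntegral.isAlgebraic ?_⟩
    obtain ⟨p, hp, hpa⟩ := hfin.to_isIntegral a
    let φ : MvPolynomial (Fin (n + 1)) ℂ →ₐ[ℂ] Algebra.adjoin ℂ (Set.range x) :=
      (MvPolynomial.aeval x : MvPolynomial (Fin (n + 1)) ℂ →ₐ[ℂ] C.R).codRestrict
        (Algebra.adjoin ℂ (Set.range x)) (fun q => by
          rw [Algebra.adjoin_range_eq_range_aeval]
          exact ⟨q, rfl⟩)
    refine ⟨p.map φ.toRingHom, hp.map _, ?_⟩
    rw [Polynomial.eval₂_map]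
    exact hpa
  have hx'' := (AlgEquiv.quotientBot ℂ C.R).symm.isTranscendenceBasis hx'
  have hcard := hy'.lift_cardinalMk_eq hx''
  simp only [Cardinal.mk_fin, Cardinal.lift_natCast] at hcard
  have : d + 1 = n + 1 := by exact_mod_cast hcard
  omega

/-- Level `m1 t` has at least `t + 1` independent elements modulo a prime of exponent `≥ 1`. -/
theorem one_le_hilb {P : Ideal C.R} {d D : ℕ} (hD : 1 ≤ D) (hd : 1 ≤ d)
    (hTS : TwoSided d D (hilb (VA C m1) P)) (t : ℕ) : t + 1 ≤ hilb (VA C m1) P t := by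
  refine le_trans ?_ (hTS t).1
  have h0 : 0 ∈ (Finset.range D).filter (fun i => i ≤ t) := by simp; omega
  refine le_trans ?_ (Finset.single_le_sum (fun _ _ => Nat.zero_le _) h0)
  rw [Nat.sub_zero]
  calc t + 1 = (t + 1).choose t := by rw [Nat.choose_succ_self_right]
    _ ≤ (t + d).choose t := Nat.choose_le_choose _ (by omega)
    _ = (t + d).choose d := by rw [← Nat.choose_symm (Nat.le_add_right t d), Nat.add_sub_cancel_left]

theorem bot_ne (h : VerOK C.A m1) (hz : GCone.NV z) (hn : 1 ≤ n) :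
    (⊥ : Ideal C.R) ≠ pz z := by
  obtain ⟨d, ℓ, hℓ, hTS⟩ := pd' h hz (hprime_bot (z := z))
  have hD : 1 ≤ ℓ * m1 ^ d := Nat.mul_pos hℓ (pow_pos h.pos _)
  have hdn := pd_bot h hz hD hTS
  have h1 := one_le_hilb hD (by omega) hTS 1
  intro hbot
  have hfin := h.fin (m1 * 1)
  -- the evaluation on `A_m` is injective
  have hinj : Function.Injective (z.toLinearMap.comp (C.A (m1 * 1)).subtype) := by
    rw [injective_iff_map_eq_zero]
    intro x hx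
    have h2 : (x : C.R) ∈ pz z := mem_pz_of_homogeneous x.2 hx
    rw [← hbot, Submodule.mem_bot] at h2
    exact Subtype.ext h2
  have h3 := LinearMap.finrank_le_finrank_of_injective hinj
  rw [finrank_self] at h3
  have h4 : hilb (VA C m1) (⊥ : Ideal C.R) 1 ≤ finrank ℂ (C.A (m1 * 1)) :=
    Submodule.finrank_map_le _ _
  omega

/-- A point of the cone where a prime vanishes and a given element does not. -/
theorem exists_pt {P : Ideal C.R} (hP : P.IsPrime) {a : C.R} (ha : a ∉ P) :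
    ∃ φ : C.R →ₐ[ℂ] ℂ, P ≤ RingHom.ker φ ∧ φ a ≠ 0 := by
  have := C.finiteType
  have hJ : IsJacobsonRing C.R := isJacobsonRing_of_finiteType (A := ℂ)
  have hjac : P.jacobson = P := hJ.out hP.isRadical
  have h1 : a ∉ P.jacobson := by rwa [hjac]
  rw [Ideal.jacobson, Submodule.mem_sInf] at h1
  push Not at h1
  obtain ⟨p, ⟨hPp, hp⟩, hap⟩ := h1
  have hp' : Ideal.IsMaximal p := hp
  let _ : Field (C.R ⧸ p) := Ideal.Quotient.field p
  have hfin : Module.Finite ℂ (C.R ⧸ p) := finite_of_finite_type_of_isJacobsonRing ℂ (C.R ⧸ p)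
  have hbij : Function.Bijective (algebraMap ℂ (C.R ⧸ p)) :=
    IsAlgClosed.algebraMap_bijective_of_isIntegral
  let e : ℂ ≃ₐ[ℂ] (C.R ⧸ p) := AlgEquiv.ofBijective (Algebra.ofId ℂ (C.R ⧸ p)) hbij
  refine ⟨e.symm.toAlgHom.comp (Ideal.Quotient.mkₐ ℂ p), fun x hx => ?_, fun h0 => hap ?_⟩
  · rw [RingHom.mem_ker]
    change e.symm (Ideal.Quotient.mk p x) = 0
    rw [Ideal.Quotient.eq_zero_iff_mem.mpr (hPp hx), map_zero]
  · have h2 : e.symm (Ideal.Quotient.mk p a) = 0 := h0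
    rw [map_eq_zero_iff _ e.symm.injective] at h2
    exact Ideal.Quotient.eq_zero_iff_mem.mp h2

/-- [CUT] -/
theorem incl (h : VerOK C.A m1) (hz : GCone.NV z) (D₀ : ℕ) : ∃ T₀, ∀ T ≥ T₀,
    ∀ P Q : Ideal C.R, HPrime z P → HPrime z Q →
    (P = pz z ∨ ∃ d D, 1 ≤ D ∧ D ≤ D₀ ∧ TwoSided d D (hilb (VA C m1) P)) →
    tr m1 P T ≤ tr m1 Q T → P ≤ Q := by
  obtain ⟨e, ℓ, hℓ, hTSz⟩ := pd' h hz hprime_pz
  have hm := h.pos
  refine ⟨max D₀ (ℓ * m1 ^ e), fun T hT P Q hP hQ hPD htr => ?_⟩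
  obtain ⟨d, D, hD1, hDT, hTS⟩ : ∃ d D, 1 ≤ D ∧ D ≤ T ∧ TwoSided d D (hilb (VA C m1) P) := by
    rcases hPD with rfl | ⟨d, D, hD1, hD, hTS⟩
    · exact ⟨e, _, Nat.mul_pos hℓ (pow_pos hm _), (le_max_right _ _).trans hT, hTSz⟩
    · exact ⟨d, D, hD1, hD.trans ((le_max_left _ _).trans hT), hTS⟩
  intro a haP
  by_contra haQ
  obtain ⟨s, hs, hsQ⟩ : ∃ s ∈ C.A m1, s ∉ Q := Set.not_subset.mp (rel h hz hQ.le)
  have has : a * s ∉ Q := fun hcon => (hQ.prime.mem_or_mem hcon).elim haQ hsQ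
  obtain ⟨φ, hφQ, hφ⟩ := exists_pt hQ.prime has
  rw [map_mul] at hφ
  obtain ⟨g, hgP, hg, hgφ⟩ := Ver.cut h hP.prime hP.hom (rel h hz hP.le) hD1 hTS φ
    ⟨a, haP, left_ne_zero_of_mul hφ⟩ ⟨s, hs, right_ne_zero_of_mul hφ⟩ hDT
  apply hgφ
  have h1 : (⟨g, hg⟩ : VA C m1 T) ∈ tr m1 P T := hgP
  exact hφQ (htr h1 : g ∈ Q)

/-- Degrees in the uniform lower bound can be lowered. -/
theorem low_mono {d D D' : ℕ} {H : ℕ → ℕ} (h : TwoSided d D H) (hD : D' ≤ D) (t : ℕ) :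
    ∑ i ∈ Finset.range D' with i ≤ t, (t - i + d).choose d ≤ H t := by
  refine le_trans (Finset.sum_le_sum_of_subset ?_) (h t).1
  exact Finset.filter_subset_filter _ (Finset.range_mono hD)

/-- **Uniform lower bound** of the Hilbert functions of all primes `P < pz z`: the exponent `d`
satisfies `1 ≤ d ≤ n`, `d < n` unless `P = ⊥`, and the degree of the Veronese is at least
`m1 ^ d`. -/
theorem pd_low (h : VerOK C.A m1) (hz : GCone.NV z) (P : Ideal C.R) (hP : HPrime z P)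
    (hne : P ≠ pz z) :
    ∃ d, 1 ≤ d ∧ d ≤ n ∧ (P ≠ ⊥ → d < n) ∧
      (∃ D, 1 ≤ D ∧ TwoSided d D (hilb (VA C m1) P)) ∧
      ∀ t, ∑ i ∈ Finset.range (m1 ^ d) with i ≤ t, (t - i + d).choose d ≤
        hilb (VA C m1) P t := by
  obtain ⟨d, ℓ, hd, hℓ, hTS⟩ := pd h hz P hP hne
  have hD : 1 ≤ ℓ * m1 ^ d := Nat.mul_pos hℓ (pow_pos h.pos _)
  have hlt : P ≠ ⊥ → d < n := by
    intro hb
    obtain ⟨e, ℓ', hℓ', hTS'⟩ := pd' h hz (hprime_bot (z := z))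
    have hE : 1 ≤ ℓ' * m1 ^ e := Nat.mul_pos hℓ' (pow_pos h.pos _)
    have he := pd_bot h hz hE hTS'
    have := pd_lt h hz ⊥ P hprime_bot hP (bot_lt_iff_ne_bot.mpr hb) hE hD hTS' hTS
    omega
  refine ⟨d, hd, ?_, hlt, ⟨_, hD, hTS⟩, fun t => low_mono hTS ?_ t⟩
  · by_cases hb : P = ⊥
    · subst hb
      exact (pd_bot h hz hD hTS).le
    · exact (hlt hb).le
  · exact Nat.le_mul_of_pos_left _ hℓ

/-- Asymptotic form: `dim (R/P)_{m1 t} ≥ (1 - ε) (m1 t) ^ d / d!` for `t ≥ t₀`, uniformly in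
`P`. -/
theorem hilb_low (h : VerOK C.A m1) (hz : GCone.NV z) {ε : ℝ} (hε : 0 < ε) :
    ∃ t₀, ∀ t ≥ t₀, ∀ P : Ideal C.R, HPrime z P → P ≠ pz z →
      ∃ d, 1 ≤ d ∧ d ≤ n ∧ (P ≠ ⊥ → d < n) ∧
        (∃ D, 1 ≤ D ∧ TwoSided d D (hilb (VA C m1) P)) ∧
        (1 - ε) * ((m1 * t : ℕ) : ℝ) ^ d / d.factorial ≤ hilb (VA C m1) P t := by
  classical
  have hm := h.pos
  have h0 : ∀ d, ∃ T : ℕ, ∀ t ≥ T, (1 - ε) * (((m1 ^ d : ℕ) : ℝ) * (t : ℝ) ^ d /
      (d.factorial : ℝ)) ≤ Hilb.lowSum d (m1 ^ d) t := by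
    intro d
    obtain ⟨T, hT⟩ := Hilb.uniform_sums d (m1 ^ d) hε
    exact ⟨T, fun t ht => (hT _ le_rfl t ht).1⟩
  choose T hT using h0
  refine ⟨(Finset.range (n + 1)).sup T, fun t ht P hP hne => ?_⟩
  obtain ⟨d, hd, hdn, hlt, hTS, hlow⟩ := pd_low h hz P hP hne
  refine ⟨d, hd, hdn, hlt, hTS, ?_⟩
  have h1 : T d ≤ t :=
    (Finset.le_sup (f := T) (Finset.mem_range.mpr (Nat.lt_succ_of_le hdn))).trans ht
  have h2 := hT d t h1
  have h3 : (Hilb.lowSum d (m1 ^ d) t : ℝ) ≤ hilb (VA C m1) P t := by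
    exact_mod_cast hlow t
  refine le_trans (le_of_eq ?_) (h2.trans h3)
  push_cast
  rw [mul_pow]
  ring

end Vale.Agent.P271.H58
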