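import Vale.Agent.P271.H741.Chart
import Vale.Agent.P271.H112.JetPS
import Vale.Agent.P271.H58.Geo

/-!
# P271 / H58 / Sep : the sections of a large degree separate the orbits of the points of a cone

For `m ≥ m₁` and a point `φ` different from the vertex, the common zeros (different from the
vertex) of the elements of `A_m` which vanish at `φ` are the points `t • φ`, `t ≠ 0`.
-/

namespace Vale.Agent.P271.H58

open Module
open Vale.Agent.P271.Sch Vale.Agent.P271.H741 Vale.Agent.P271.Ver Vale.Agent.P271.Main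
open Vale.Agent.P271.Drop

/-- Representation of large numbers by `k` and `k + 1`. -/
theorem exists_rep (k c m : ℕ) (hm : c * k + (k + 1) + k * k ≤ m) :
    ∃ a b, a * k + b * (k + 1) = m ∧ c ≤ a ∧ 1 ≤ b := by
  rcases Nat.eq_zero_or_pos k with rfl | hk
  · exact ⟨c, m, by simp, le_rfl, by omega⟩
  · obtain ⟨m', rfl⟩ := Nat.exists_eq_add_of_le hm
    -- `k * k + m' = k q + r`
    have h1 := Nat.div_add_mod (k * k + m') k
    have h2 := Nat.mod_lt (k * k + m') hk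
    set q := (k * k + m') / k with hq
    set r := (k * k + m') % k with hr
    have h3 : k ≤ q := by
      rw [hq, Nat.le_div_iff_mul_le hk]
      omega
    obtain ⟨p, hp⟩ := Nat.exists_eq_add_of_le (h2.le.trans h3)
    refine ⟨c + p, 1 + r, ?_, Nat.le_add_right _ _, Nat.le_add_right _ _⟩
    have h4 : k * q + r = k * k + m' := h1
    rw [hp] at h4
    nlinarith [h4]

section

variable {n : ℕ} {C : GCone n}

theorem mon_mem {k a b m : ℕ} {s s' : C.R} (hs : s ∈ C.A k) (hs' : s' ∈ C.A (k + 1))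
    (h : a * k + b * (k + 1) = m) : s ^ a * s' ^ b ∈ C.A m := by
  subst h
  have h1 := SetLike.pow_mem_graded a hs
  have h2 := SetLike.pow_mem_graded b hs'
  exact SetLike.mul_mem_graded h1 h2

/-- The core: the pairs `(s, s')` determine the point up to the action. -/
theorem sep_core {T : Finset (ℕ × C.R × C.R)}
    (hT : ∀ q ∈ T, q.2.1 ∈ C.A q.1 ∧ q.2.2 ∈ C.A (q.1 + 1))
    (hT' : ∀ χ : C.Pt, GCone.NV χ → ∃ q ∈ T, χ q.2.1 ≠ 0 ∧ χ q.2.2 ≠ 0)
    {ι : Type} {x : ι → C.R} {w : ι → ℕ} (hx : ∀ l, x l ∈ C.A (w l))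
    (hgen : Algebra.adjoin ℂ (Set.range x) = ⊤) {W K m : ℕ} (hW : ∀ l, w l ≤ W)
    (hK : ∀ q ∈ T, q.1 ≤ K) (hm : W + ((K + 2) * K + (K + 1) + K * K) ≤ m)
    {φ χ : C.Pt} (hφ : GCone.NV φ) (hχ : GCone.NV χ)
    (h : ∀ t ∈ C.A m, φ t = 0 → χ t = 0) : ∃ c : ℂ, c ≠ 0 ∧ χ = GCone.tact c φ := by
  obtain ⟨⟨k, s, s'⟩, hq, hφs, hφs'⟩ := hT' φ hφ
  obtain ⟨⟨k₂, s₂, s₂'⟩, hq₂, hχs₂, hχs₂'⟩ := hT' χ hχ
  obtain ⟨hs, hs'⟩ := hT _ hq
  obtain ⟨hs₂, hs₂'⟩ := hT _ hq₂
  simp only at hs hs' hs₂ hs₂' hφs hφs' hχs₂ hχs₂'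
  have hkK : k ≤ K := hK _ hq
  have hk₂K : k₂ ≤ K := hK _ hq₂
  have hbd : ∀ j ≤ K, (j + 2) * j + (j + 1) + j * j ≤ (K + 2) * K + (K + 1) + K * K := by
    intro j hj
    gcongr
  obtain ⟨a, b, hab, ha, hb⟩ := exists_rep k (k + 2) m (by have := hbd k hkK; omega)
  obtain ⟨a₂, b₂, hab₂, -, -⟩ := exists_rep k₂ (k₂ + 2) m (by have := hbd k₂ hk₂K; omega)
  set u := s ^ a * s' ^ b with hu
  have huA : u ∈ C.A m := mon_mem hs hs' hab
  have hφu : φ u ≠ 0 := by
    rw [hu, map_mul, map_pow, map_pow]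
    exact mul_ne_zero (pow_ne_zero _ hφs) (pow_ne_zero _ hφs')
  -- proportionality in degree `m`
  have hprop : ∀ t ∈ C.A m, φ u * χ t = φ t * χ u := by
    intro t ht
    have h1 : φ u • t - φ t • u ∈ C.A m :=
      Submodule.sub_mem _ (Submodule.smul_mem _ _ ht) (Submodule.smul_mem _ _ huA)
    have h2 := h _ h1 (by rw [map_sub, map_smul, map_smul, smul_eq_mul, smul_eq_mul]; ring)
    rw [map_sub, map_smul, map_smul, smul_eq_mul, smul_eq_mul] at h2
    linear_combination h2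
  have hχu : χ u ≠ 0 := by
    intro h0
    have h1 := hprop _ (mon_mem hs₂ hs₂' hab₂)
    rw [h0, mul_zero] at h1
    rcases mul_eq_zero.1 h1 with h2 | h2
    · exact hφu h2
    · rw [map_mul, map_pow, map_pow] at h2
      exact mul_ne_zero (pow_ne_zero _ hχs₂) (pow_ne_zero _ hχs₂') h2
  have hχs : χ s ≠ 0 := by
    intro h0
    apply hχu
    rw [hu, map_mul, map_pow, h0, zero_pow (by omega), zero_mul]
  have hχs' : χ s' ≠ 0 := by
    intro h0
    apply hχu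
    rw [hu, map_mul, map_pow, map_pow, h0, zero_pow (by omega), mul_zero]
  -- the second monomial
  obtain ⟨a', rfl⟩ := Nat.exists_eq_add_of_le (show k + 1 ≤ a by omega)
  have h1 := hprop (s ^ a' * s' ^ (b + k)) (mon_mem hs hs' (by rw [← hab]; ring))
  have hkey : χ s' ^ k * φ s ^ (k + 1) = χ s ^ (k + 1) * φ s' ^ k := by
    rw [hu] at h1
    simp only [map_mul, map_pow] at h1
    have h2 : (φ s ^ a' * φ s' ^ b * (χ s ^ a' * χ s' ^ b)) ≠ 0 :=
      mul_ne_zero (mul_ne_zero (pow_ne_zero _ hφs) (pow_ne_zero _ hφs'))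
        (mul_ne_zero (pow_ne_zero _ hχs) (pow_ne_zero _ hχs'))
    refine mul_left_cancel₀ h2 ?_
    calc _ = φ s ^ (k + 1 + a') * φ s' ^ b * (χ s ^ a' * χ s' ^ (b + k)) := by ring
      _ = _ := h1
      _ = _ := by ring
  set t := χ s' * φ s / (χ s * φ s') with ht
  have ht0 : t ≠ 0 := div_ne_zero (mul_ne_zero hχs' hφs) (mul_ne_zero hχs hφs')
  have htk : χ s = t ^ k * φ s := by
    rw [ht, div_pow, mul_pow, mul_pow, div_mul_eq_mul_div, eq_div_iff (by
      exact mul_ne_zero (pow_ne_zero _ hχs) (pow_ne_zero _ hφs'))]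
    linear_combination -hkey
  have htk' : χ s' = t ^ (k + 1) * φ s' := by
    have h3 : t * χ s * φ s' = χ s' * φ s := by
      rw [ht]
      field_simp
    have h4 : (t ^ (k + 1) * φ s') * φ s = χ s' * φ s := by
      rw [← h3]
      conv_rhs => rw [htk]
      ring
    exact (mul_right_cancel₀ hφs h4).symm
  refine ⟨t, ht0, ?_⟩
  have hχm : χ u = t ^ m * φ u := by
    rw [hu, map_mul, map_mul, map_pow, map_pow, map_pow, map_pow, htk, htk', ← hab]
    ring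
  refine AlgHom.ext_of_adjoin_eq_top hgen ?_
  rintro _ ⟨l, rfl⟩
  rw [GCone.tact, pact_mem C.A t φ (hx l)]
  obtain ⟨c, d, hcd, -, -⟩ := exists_rep k 0 (m - w l) (by
    have h5 := hbd k hkK
    have h6 := hW l
    have h7 : 0 * k + (k + 1) + k * k ≤ (k + 2) * k + (k + 1) + k * k := by
      rw [zero_mul]; omega
    omega)
  have hwm : w l ≤ m := (hW l).trans (by omega)
  have h8 : x l * (s ^ c * s' ^ d) ∈ C.A m := by
    have h9 := SetLike.mul_mem_graded (hx l) (mon_mem hs hs' hcd)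
    rwa [Nat.add_sub_cancel' hwm] at h9
  have h10 := hprop _ h8
  rw [hχm] at h10
  simp only [map_mul, map_pow] at h10
  rw [htk, htk'] at h10
  have h11 : (t ^ k * φ s) ^ c * (t ^ (k + 1) * φ s') ^ d = t ^ (m - w l) * (φ s ^ c * φ s' ^ d) := by
    rw [← hcd]
    ring
  have h12 : t ^ m = t ^ (m - w l) * t ^ w l := by
    rw [← pow_add, Nat.sub_add_cancel hwm]
  rw [h11, h12] at h10
  have h13 : φ u * (t ^ (m - w l) * (φ s ^ c * φ s' ^ d)) ≠ 0 :=
    mul_ne_zero hφu (mul_ne_zero (pow_ne_zero _ ht0)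
      (mul_ne_zero (pow_ne_zero _ hφs) (pow_ne_zero _ hφs')))
  refine mul_left_cancel₀ h13 ?_
  linear_combination h10

/-- Pairs and generators of a cone. -/
theorem exists_pairs (C : GCone n) : ∃ (T : Finset (ℕ × C.R × C.R)),
    (∀ q ∈ T, q.2.1 ∈ C.A q.1 ∧ q.2.2 ∈ C.A (q.1 + 1)) ∧
    ∀ χ : C.Pt, GCone.NV χ → ∃ q ∈ T, χ q.2.1 ≠ 0 ∧ χ q.2.2 ≠ 0 := by
  have := C.finiteType
  have : IsNoetherianRing C.R := Algebra.FiniteType.isNoetherianRing ℂ C.R
  obtain ⟨T, hT, hT'⟩ := H112.exists_finset_pairs (K := ℂ) C.A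
  refine ⟨T, hT, fun χ hχ => hT' χ ?_⟩
  obtain ⟨k, e, he, e', he', h1, h2⟩ := H112.exists_pair χ hχ
  exact ⟨k, e, he, e', he', h1, h2⟩

/-- In all large degrees there are nonzero sections which vanish at a given point. -/
theorem exists_zero_section (C : GCone n) (hn : 1 ≤ n) : ∃ m₂, ∀ m ≥ m₂, ∀ φ : C.Pt,
    GCone.NV φ → ∃ g ∈ C.A m, g ≠ 0 ∧ φ g = 0 := by
  by_cases hex : ∃ φ₀ : C.Pt, GCone.NV φ₀
  · obtain ⟨φ₀, hφ₀⟩ := hex
    obtain ⟨m', hm', hall⟩ := exists_verOK_cone C hφ₀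
    have hOK := hall m' dvd_rfl hm'
    obtain ⟨d, ℓ, hℓ, hTS⟩ := pd' hOK hφ₀ (hprime_bot (z := φ₀))
    have hD : 1 ≤ ℓ * m' ^ d := Nat.mul_pos hℓ (pow_pos hm' _)
    have hdn := pd_bot hOK hφ₀ hD hTS
    have h1 := one_le_hilb hD (by omega) hTS 1
    have hfin := hOK.fin (m' * 1)
    have h4 : hilb (VA C m') (⊥ : Ideal C.R) 1 ≤ finrank ℂ (C.A (m' * 1)) :=
      Submodule.finrank_map_le _ _
    obtain ⟨k, e, he, e', he', h5, h6⟩ := H112.exists_pair φ₀ hφ₀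
    refine ⟨m' * 1 + (0 * k + (k + 1) + k * k), fun m hm φ hφ => ?_⟩
    -- a nonzero element of degree `m'` which vanishes at `φ`
    have hnot : ¬ Function.Injective (φ.toLinearMap.comp (C.A (m' * 1)).subtype) := by
      intro hinj
      have h3 := LinearMap.finrank_le_finrank_of_injective hinj
      rw [finrank_self] at h3
      omega
    rw [injective_iff_map_eq_zero] at hnot
    push Not at hnot
    obtain ⟨g, hg0, hgne⟩ := hnot
    obtain ⟨a, b, hab, -, -⟩ := exists_rep k 0 (m - m' * 1) (by omega)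
    have hu := mon_mem he he' hab
    have hune : e ^ a * e' ^ b ≠ 0 := by
      intro h0
      have h7 := congrArg φ₀ h0
      rw [map_mul, map_pow, map_pow, map_zero] at h7
      exact mul_ne_zero (pow_ne_zero _ h5) (pow_ne_zero _ h6) h7
    refine ⟨(g : C.R) * (e ^ a * e' ^ b), ?_, mul_ne_zero (fun h0 => hgne (Subtype.ext h0)) hune,
      ?_⟩
    · have h8 := SetLike.mul_mem_graded g.2 hu
      rwa [Nat.add_sub_cancel' (by omega)] at h8
    · have h9 : φ (g : C.R) = 0 := hg0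
      rw [map_mul, h9, zero_mul]
  · exact ⟨0, fun m _ φ hφ => absurd ⟨φ, hφ⟩ hex⟩

/-- **SEP**: for `m ≥ m₁` the elements of `A_m` which vanish at `φ` have, besides the vertex, only
the orbit of `φ` as common zeros. -/
theorem sep (C : GCone n) : ∃ m₁, ∀ m ≥ m₁, ∀ φ : C.Pt, GCone.NV φ →
    ∃ (r : ℕ) (t : Fin r → C.R), (∀ j, t j ∈ C.A m) ∧ (∀ j, φ (t j) = 0) ∧
      (∀ χ : C.Pt, GCone.NV χ → (∀ j, χ (t j) = 0) → ∃ c : ℂ, c ≠ 0 ∧ χ = GCone.tact c φ) ∧
      (1 ≤ n → ∃ j, t j ≠ 0) := by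
  classical
  have hft := C.finiteType
  obtain ⟨T, hT, hT'⟩ := exists_pairs C
  obtain ⟨ι, _, x, w, hx, hgen⟩ := H112.exists_gens (K := ℂ) C.A
  obtain ⟨m₂, hm₂⟩ : ∃ m₂, 1 ≤ n → ∀ m ≥ m₂, ∀ φ : C.Pt, GCone.NV φ →
      ∃ g ∈ C.A m, g ≠ 0 ∧ φ g = 0 := by
    by_cases hn : 1 ≤ n
    · obtain ⟨m₂, h⟩ := exists_zero_section C hn
      exact ⟨m₂, fun _ => h⟩
    · exact ⟨0, fun h => absurd h hn⟩
  set W := Finset.univ.sup w
  set K := T.sup (fun q => q.1)
  refine ⟨max m₂ (W + ((K + 2) * K + (K + 1) + K * K)), fun m hm φ hφ => ?_⟩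
  have hfin : (C.A m).FG := Hilb.piece_fg C.A (fun a ha => by
    obtain ⟨c, hc⟩ := C.zero a ha
    exact ⟨c, hc⟩) m
  have hfin' : Module.Finite ℂ (C.A m) := Module.Finite.iff_fg.mpr hfin
  set V := LinearMap.ker (φ.toLinearMap.comp (C.A m).subtype) with hV
  have hfree : Module.Free ℂ V := Module.Free.of_divisionRing ℂ V
  set b := Module.finBasis ℂ V with hb
  have hspan : ∀ χ : C.Pt, (∀ j, χ ((b j : C.A m) : C.R) = 0) → ∀ t ∈ C.A m, φ t = 0 →
      χ t = 0 := by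
    intro χ hχ t ht h0
    have h1 : (⟨t, ht⟩ : C.A m) ∈ V := h0
    have h2 := b.sum_repr ⟨⟨t, ht⟩, h1⟩
    have h3 := congrArg (fun v : V => χ ((v : C.A m) : C.R)) h2
    simp only at h3
    rw [← h3]
    push_cast
    rw [map_sum]
    refine Finset.sum_eq_zero (fun j _ => ?_)
    rw [map_smul, hχ j, smul_zero]
  refine ⟨finrank ℂ V, fun j => ((b j : C.A m) : C.R), fun j => (b j : C.A m).2,
    fun j => (b j).2, fun χ hχ hχ0 => ?_, fun hn => ?_⟩
  · exact sep_core hT hT' hx hgen (fun l => Finset.le_sup (Finset.mem_univ l))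
      (fun q hq => Finset.le_sup (f := fun q => q.1) hq) ((le_max_right _ _).trans hm) hφ hχ
      (hspan χ hχ0)
  · obtain ⟨g, hg, hg0, hφg⟩ := hm₂ hn m ((le_max_left _ _).trans hm) φ hφ
    have h1 : (⟨g, hg⟩ : C.A m) ∈ V := hφg
    have h2 : 0 < finrank ℂ V := by
      by_contra hcon
      have hemp : IsEmpty (Fin (finrank ℂ V)) := by
        rw [Nat.eq_zero_of_not_pos hcon]
        exact Fin.isEmpty
      have h3 := b.sum_repr ⟨⟨g, hg⟩, h1⟩
      rw [Finset.univ_eq_empty, Finset.sum_empty] at h3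
      exact hg0 (congrArg (fun v : V => ((v : C.A m) : C.R)) h3).symm
    exact ⟨⟨0, h2⟩, fun h0 => b.ne_zero ⟨0, h2⟩ (Subtype.ext (Subtype.ext h0))⟩

end

end Vale.Agent.P271.H58
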