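import Mathlib

/-!
# P271 / H58 / Char : extension of characters through a minimal polynomial
-/

namespace Vale.Agent.P271.Cut

open Polynomial

/-- A character of a subring over which `B` is integral extends to `B`. -/
theorem exists_char_extension {k C B : Type*} [Field k] [IsAlgClosed k] [CommRing C] [CommRing B]
    [Algebra k C] [Algebra k B] [Algebra C B] [IsScalarTower k C B] [Algebra.IsIntegral C B]
    (hinj : Function.Injective (algebraMap C B)) (χ : C →ₐ[k] k) :
    ∃ w : B →ₐ[k] k, ∀ c, w (algebraMap C B c) = χ c := by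
  have hker : (RingHom.ker χ).IsPrime := RingHom.ker_isPrime _
  obtain ⟨Q, -, hQ, hQc⟩ := Ideal.exists_ideal_over_prime_of_isIntegral
    (S := B) (RingHom.ker χ) ⊥ (by
      intro c hc
      have h0 : algebraMap C B c = 0 := by simpa using hc
      have : c = 0 := hinj (by rw [h0, map_zero])
      rw [this]; exact Ideal.zero_mem _)
  have hmem : ∀ c : C, algebraMap C B c - algebraMap k B (χ c) ∈ Q := by
    intro c
    have h1 : c - algebraMap k C (χ c) ∈ RingHom.ker χ := by
      rw [RingHom.mem_ker, map_sub, AlgHom.commutes]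
      simp
    rw [← hQc, Ideal.mem_comap, map_sub, ← IsScalarTower.algebraMap_apply] at h1
    exact h1
  have hint : Algebra.IsIntegral k (B ⧸ Q) := by
    refine ⟨fun b => ?_⟩
    obtain ⟨b, rfl⟩ := Ideal.Quotient.mk_surjective b
    obtain ⟨p, hp, hpb⟩ := Algebra.IsIntegral.isIntegral (R := C) b
    refine ⟨p.map (χ : C →+* k), hp.map _, ?_⟩
    rw [eval₂_map]
    have h2 : (algebraMap k (B ⧸ Q)).comp (χ : C →+* k) =
        (Ideal.Quotient.mk Q).comp (algebraMap C B) := by
      ext c
      simp only [RingHom.comp_apply, RingHom.coe_coe]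
      have h3 : algebraMap k (B ⧸ Q) (χ c) = Ideal.Quotient.mk Q (algebraMap k B (χ c)) := rfl
      rw [h3]
      symm
      rw [Ideal.Quotient.eq]
      exact hmem c
    rw [h2, ← hom_eval₂, hpb, map_zero]
  have hbij := IsAlgClosed.algebraMap_bijective_of_isIntegral (k := k) (K := B ⧸ Q)
  let e : k ≃ₐ[k] (B ⧸ Q) := AlgEquiv.ofBijective (Algebra.ofId k (B ⧸ Q)) hbij
  refine ⟨e.symm.toAlgHom.comp (Ideal.Quotient.mkₐ k Q), fun c => ?_⟩
  change e.symm (Ideal.Quotient.mk Q (algebraMap C B c)) = χ c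
  have h4 : Ideal.Quotient.mk Q (algebraMap C B c) = e (χ c) := by
    have h5 : e (χ c) = Ideal.Quotient.mk Q (algebraMap k B (χ c)) := rfl
    rw [h5, Ideal.Quotient.eq]
    exact hmem c
  rw [h4, AlgEquiv.symm_apply_apply]

/-- `S` integrally closed, `B` a domain integral over `S`: a root of the specialised minimal
polynomial of `ℓ` is the value at `ℓ` of a character extending the given one. -/
theorem exists_char_of_root {k S B : Type*} [Field k] [IsAlgClosed k] [CommRing S] [IsDomain S]
    [IsIntegrallyClosed S] [Algebra k S] [CommRing B] [IsDomain B] [Algebra k B] [Algebra S B]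
    [IsScalarTower k S B] [Module.IsTorsionFree S B] [Algebra.IsIntegral S B]
    (ℓ : B) (c : S →ₐ[k] k) (τ : k) (hτ : (minpoly S ℓ).eval₂ (c : S →+* k) τ = 0) :
    ∃ w : B →ₐ[k] k, (∀ s, w (algebraMap S B s) = c s) ∧ w ℓ = τ := by
  have hℓ : IsIntegral S ℓ := Algebra.IsIntegral.isIntegral ℓ
  let C := Algebra.adjoin S ({ℓ} : Set B)
  let e : AdjoinRoot (minpoly S ℓ) ≃ₐ[S] C := minpoly.equivAdjoin hℓ
  have he : e (AdjoinRoot.root _) = ⟨ℓ, Algebra.subset_adjoin (Set.mem_singleton ℓ)⟩ := by
    have h1 := _root_.Algebra.adjoin.powerBasis'_gen hℓ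
    rw [Algebra.adjoin.powerBasis', PowerBasis.map_gen, AdjoinRoot.powerBasis'_gen] at h1
    exact h1
  let ψ : AdjoinRoot (minpoly S ℓ) →+* k := AdjoinRoot.lift (c : S →+* k) τ hτ
  have hψ1 : ∀ s : S, ψ (algebraMap S _ s) = c s := fun s => AdjoinRoot.lift_of hτ
  have hψ2 : ψ (AdjoinRoot.root _) = τ := AdjoinRoot.lift_root hτ
  let χ : C →ₐ[k] k :=
    { (ψ.comp (e.symm : C →+* AdjoinRoot (minpoly S ℓ))) with
      commutes' := by
        intro r
        change ψ (e.symm (algebraMap k C r)) = _
        have h2 : algebraMap k C r = algebraMap S C (algebraMap k S r) :=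
          IsScalarTower.algebraMap_apply k S C r
        rw [h2, AlgEquiv.commutes, hψ1, AlgHom.commutes] }
  have hχ : ∀ x : C, χ x = ψ (e.symm x) := fun _ => rfl
  have : Algebra.IsIntegral C B := ⟨fun b => (Algebra.IsIntegral.isIntegral (R := S) b).tower_top⟩
  obtain ⟨w, hw⟩ := exists_char_extension (k := k) (C := C) (B := B) Subtype.val_injective χ
  refine ⟨w, fun s => ?_, ?_⟩
  · have h3 := hw (algebraMap S C s)
    rw [← IsScalarTower.algebraMap_apply S C B] at h3
    rw [h3, hχ, AlgEquiv.commutes, hψ1]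
  · have h4 := hw ⟨ℓ, Algebra.subset_adjoin (Set.mem_singleton ℓ)⟩
    have h5 : (algebraMap C B) ⟨ℓ, Algebra.subset_adjoin (Set.mem_singleton ℓ)⟩ = ℓ := rfl
    rw [h5] at h4
    rw [h4, hχ, ← he, AlgEquiv.symm_apply_apply, hψ2]

/-- The characters of `B` with a given restriction to `S` are finite in number. -/
theorem finite_chars {k S B : Type*} [Field k] [CommRing S] [Algebra k S] [CommRing B]
    [Algebra k B] [Algebra S B] [Algebra.IsIntegral S B] [Algebra.FiniteType k B]
    (c : S →ₐ[k] k) : {w : B →ₐ[k] k | ∀ s, w (algebraMap S B s) = c s}.Finite := by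
  classical
  obtain ⟨G, hG⟩ := Algebra.FiniteType.out (R := k) (A := B)
  -- restrict to the generators
  let ev : (B →ₐ[k] k) → (G → k) := fun w g => w g
  have hev : Function.Injective ev := by
    intro w w' h
    apply AlgHom.ext_of_adjoin_eq_top hG
    intro g hg
    exact congrFun h ⟨g, hg⟩
  refine Set.Finite.of_finite_image (f := ev) ?_ hev.injOn
  let R : G → Set k := fun g => {τ | ((Algebra.IsIntegral.isIntegral (R := S) (g : B)).choose.map
    (c : S →+* k)).IsRoot τ}
  refine (Set.Finite.pi' (t := R) (fun g => ?_)).subset ?_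
  · have hmon := (Algebra.IsIntegral.isIntegral (R := S) (g : B)).choose_spec.1
    exact Polynomial.finite_setOfPred_isRoot (hmon.map _).ne_zero
  · rintro _ ⟨w, hw, rfl⟩ g
    have h1 := (Algebra.IsIntegral.isIntegral (R := S) (g : B)).choose_spec.2
    change Polynomial.eval _ _ = 0
    rw [eval_map]
    have h2 : (c : S →+* k) = (w : B →+* k).comp (algebraMap S B) := by
      ext s
      exact (hw s).symm
    change eval₂ _ (w g) _ = 0
    rw [h2]
    have h3 := congrArg w h1
    rw [map_zero] at h3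
    have h4 := Polynomial.hom_eval₂ (Algebra.IsIntegral.isIntegral (R := S) (g : B)).choose
      (algebraMap S B) (w : B →+* k) (g : B)
    rw [← h3]
    exact h4.symm

/-- Choice of an element of a generating subspace that separates a character from finitely many
others. -/
theorem exists_separating {k A : Type*} [Field k] [Infinite k] [CommRing A] [Algebra k A]
    (V : Submodule k A) (hV : Algebra.adjoin k (V : Set A) = ⊤) (x : A →ₐ[k] k)
    (W : Set (A →ₐ[k] k)) (hW : W.Finite) (hx : x ∉ W) :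
    ∃ ℓ ∈ V, ∀ w ∈ W, x ℓ ≠ w ℓ := by
  classical
  let E : (A →ₐ[k] k) → Subspace k V := fun w =>
    LinearMap.ker ((x.toLinearMap - w.toLinearMap).comp V.subtype)
  let s : Finset (Subspace k V) := hW.toFinset.image E
  have hs : ⊤ ∉ s := by
    intro h
    obtain ⟨w, hw, hwE⟩ := Finset.mem_image.mp h
    rw [Set.Finite.mem_toFinset] at hw
    apply hx
    have hxw : x = w := by
      apply AlgHom.ext_of_adjoin_eq_top hV
      intro v hv
      have h1 : (⟨v, hv⟩ : V) ∈ E w := by rw [hwE]; trivial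
      have h2 : x v - w v = 0 := h1
      exact sub_eq_zero.mp h2
    rwa [hxw]
  have hne := Subspace.biUnion_ne_univ_of_top_notMem hs
  obtain ⟨ℓ, hℓ⟩ : ∃ ℓ : V, ℓ ∉ ⋃ p ∈ s, (p : Set V) := by
    by_contra hcon
    push Not at hcon
    exact hne (Set.eq_univ_of_forall hcon)
  refine ⟨ℓ, ℓ.2, fun w hw heq => hℓ ?_⟩
  rw [Set.mem_iUnion₂]
  refine ⟨E w, Finset.mem_image.mpr ⟨w, hW.mem_toFinset.mpr hw, rfl⟩, ?_⟩
  change x ℓ - w ℓ = 0
  rw [heq, sub_self]

end Vale.Agent.P271.Cut
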