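import Mathlib

/-!
# P271 / H58 / Growth : comparison of leading coefficients of Hilbert functions
-/

namespace Vale.Agent.P271.Cut

open Filter Topology

theorem tendsto_ratio (M : ℝ) (d : ℕ) :
    Tendsto (fun n : ℕ => (((n : ℝ) + M) / ((n : ℝ) + 1)) ^ d) atTop (𝓝 1) := by
  have h1 : Tendsto (fun n : ℕ => 1 + (M - 1) * (1 / ((n : ℝ) + 1))) atTop (𝓝 (1 + (M - 1) * 0)) :=
    tendsto_const_nhds.add (tendsto_const_nhds.mul tendsto_one_div_add_atTop_nhds_zero_nat)
  rw [mul_zero, add_zero] at h1
  have h2 : (fun n : ℕ => ((n : ℝ) + M) / ((n : ℝ) + 1)) =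
      fun n : ℕ => 1 + (M - 1) * (1 / ((n : ℝ) + 1)) := by
    funext n
    have : (n : ℝ) + 1 ≠ 0 := by positivity
    field_simp
    ring
  have h3 := (h2 ▸ h1 : Tendsto (fun n : ℕ => ((n : ℝ) + M) / ((n : ℝ) + 1)) atTop (𝓝 1)).pow d
  rwa [one_pow] at h3

theorem choose_growth {a b d M : ℕ} (h : ∀ n : ℕ, a * (n + d).choose d ≤ b * (n + M).choose d) :
    a ≤ b := by
  have hreal : ∀ n : ℕ, (a : ℝ) ≤ b * (((n : ℝ) + M) / ((n : ℝ) + 1)) ^ d := by
    intro n
    have h1 : ((a * (n + d).choose d : ℕ) : ℝ) ≤ ((b * (n + M).choose d : ℕ) : ℝ) := by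
      exact_mod_cast h n
    push_cast at h1
    have hfac : (0 : ℝ) < (Nat.factorial d : ℝ) := by exact_mod_cast Nat.factorial_pos d
    have h2 : ((n : ℝ) + 1) ^ d / Nat.factorial d ≤ ((n + d).choose d : ℝ) := by
      have := Nat.pow_le_choose (α := ℝ) d (n + d)
      refine le_trans (le_of_eq ?_) this
      have h3 : n + d + 1 - d = n + 1 := by omega
      rw [h3]
      push_cast
      ring
    have h3 : ((n + M).choose d : ℝ) ≤ ((n : ℝ) + M) ^ d / Nat.factorial d := by
      have := Nat.choose_le_pow_div (α := ℝ) d (n + M)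
      push_cast at this
      exact this
    have hn : (0 : ℝ) < ((n : ℝ) + 1) ^ d := by positivity
    have h4 : (a : ℝ) * (((n : ℝ) + 1) ^ d / Nat.factorial d) ≤
        b * (((n : ℝ) + M) ^ d / Nat.factorial d) :=
      (mul_le_mul_of_nonneg_left h2 (Nat.cast_nonneg a)).trans
        (h1.trans (mul_le_mul_of_nonneg_left h3 (Nat.cast_nonneg b)))
    have h5 : (a : ℝ) * ((n : ℝ) + 1) ^ d ≤ b * ((n : ℝ) + M) ^ d := by
      have h6 := mul_le_mul_of_nonneg_right h4 hfac.le
      have e1 : (a : ℝ) * (((n : ℝ) + 1) ^ d / Nat.factorial d) * Nat.factorial d =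
          a * ((n : ℝ) + 1) ^ d := by field_simp
      have e2 : (b : ℝ) * (((n : ℝ) + M) ^ d / Nat.factorial d) * Nat.factorial d =
          b * ((n : ℝ) + M) ^ d := by field_simp
      rwa [e1, e2] at h6
    rw [div_pow, ← mul_div_assoc, le_div_iff₀ hn]
    exact h5
  have hlim := (tendsto_ratio (M : ℝ) d).const_mul (b : ℝ)
  rw [mul_one] at hlim
  have := ge_of_tendsto' hlim hreal
  exact_mod_cast this

/-- Comparison of the lower and upper bounds of Hilbert functions. -/
theorem le_of_growth {d e D : ℕ}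
    (h : ∀ t, ∑ i ∈ Finset.range e with i ≤ t, (t - i + d).choose d ≤
      ∑ i ∈ Finset.range D, (t + i + d).choose d) : e ≤ D := by
  apply choose_growth (d := d) (M := e + D + d)
  intro n
  have h1 := h (n + e)
  have h2 : e * (n + d).choose d ≤
      ∑ i ∈ Finset.range e with i ≤ n + e, (n + e - i + d).choose d := by
    have hfil : (Finset.range e).filter (fun i => i ≤ n + e) = Finset.range e := by
      apply Finset.filter_true_of_mem
      intro i hi
      rw [Finset.mem_range] at hi
      omega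
    rw [hfil]
    calc e * (n + d).choose d = ∑ _i ∈ Finset.range e, (n + d).choose d := by simp
      _ ≤ ∑ i ∈ Finset.range e, (n + e - i + d).choose d := by
        refine Finset.sum_le_sum (fun i hi => ?_)
        rw [Finset.mem_range] at hi
        exact Nat.choose_le_choose _ (by omega)
  have h3 : ∑ i ∈ Finset.range D, (n + e + i + d).choose d ≤ D * (n + (e + D + d)).choose d := by
    calc ∑ i ∈ Finset.range D, (n + e + i + d).choose d
        ≤ ∑ _i ∈ Finset.range D, (n + (e + D + d)).choose d := by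
          refine Finset.sum_le_sum (fun i hi => ?_)
          rw [Finset.mem_range] at hi
          exact Nat.choose_le_choose _ (by omega)
      _ = D * (n + (e + D + d)).choose d := by simp
  exact h2.trans (h1.trans h3)

end Vale.Agent.P271.Cut
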