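import Vale.Agent.P271.H58.Char
import Vale.Agent.P271.H58.Growth
import Vale.Agent.P271.Hilb.Unif

/-!
# P271 / H58 / Cut : a projective variety of degree `D` is cut out by forms of degree at most `D`

`A` is a standard graded algebra over the algebraically closed field `k`, `B` a graded domain,
`π : A → B` a surjective graded homomorphism, `P = ker π`. If the Hilbert function of `B` is at
most `∑_{i < D} C(t + i + d, d)`, `d + 1` the number of Noether parameters, then for every character
`x` of `A` not vanishing on `P` there is a homogeneous `g ∈ P` of degree at most `D` with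
`x g ≠ 0`.
-/

namespace Vale.Agent.P271.Cut

open MvPolynomial Vale.Agent.P271.Hilb

/-- The degree of the minimal polynomial of a homogeneous element of degree one is at most `D`. -/
theorem natDegree_minpoly_le {k : Type*} [Field k] {d : ℕ} {R : Type*} [CommRing R] [Algebra k R]
    [Algebra (MvPolynomial (Fin (d + 1)) k) R] [IsScalarTower k (MvPolynomial (Fin (d + 1)) k) R]
    (𝒜 : ℕ → Submodule k R) [GradedAlgebra 𝒜]
    (hy : ∀ i, algebraMap (MvPolynomial (Fin (d + 1)) k) R (X i) ∈ 𝒜 1)
    [IsDomain R] [Module.IsTorsionFree (MvPolynomial (Fin (d + 1)) k) R]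
    [Algebra.IsIntegral (MvPolynomial (Fin (d + 1)) k) R]
    [Module.Finite (MvPolynomial (Fin (d + 1)) k) R] {D : ℕ}
    (hD : ∀ t, Module.Finite k (𝒜 t) ∧
      Module.finrank k (𝒜 t) ≤ ∑ i ∈ Finset.range D, (t + i + d).choose d)
    {x : R} (hx : x ∈ 𝒜 1) :
    (minpoly (MvPolynomial (Fin (d + 1)) k) x).natDegree ≤ D := by
  classical
  let A := MvPolynomial (Fin (d + 1)) k
  have hintA : ∀ x : R, IsIntegral A x := fun x => Algebra.IsIntegral.isIntegral x
  let K := FractionRing A
  let L := FractionRing R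
  let _ : Algebra K L := FractionRing.liftAlgebra A L
  have : IsScalarTower A K L := FractionRing.isScalarTower_liftAlgebra A L
  have : FiniteDimensional K L := finiteDimensional_of_finite (R := R) A
  have : IsScalarTower k K L := IsScalarTower.of_algebraMap_eq (fun c => by
    rw [IsScalarTower.algebraMap_apply k A K, ← IsScalarTower.algebraMap_apply A K L,
      IsScalarTower.algebraMap_apply A R L, ← IsScalarTower.algebraMap_apply k A R,
      ← IsScalarTower.algebraMap_apply k R L])
  -- powers of `x` are independent over `K`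
  have hmp : minpoly K (algebraMap R L x) = (minpoly A x).map (algebraMap A K) :=
    minpoly.isIntegrallyClosed_eq_field_fractions K L (hintA x)
  have hdeg : (minpoly K (algebraMap R L x)).natDegree = (minpoly A x).natDegree := by
    rw [hmp]
    exact (minpoly.monic (hintA x)).natDegree_map _
  have hli : LinearIndependent K (fun i : Fin (minpoly A x).natDegree =>
      algebraMap R L (x ^ (i : ℕ))) := by
    have h1 := linearIndependent_pow (K := K) (algebraMap R L x)
    rw [hdeg] at h1
    have h2 : (fun i : Fin (minpoly A x).natDegree => algebraMap R L (x ^ (i : ℕ))) =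
        fun i : Fin (minpoly A x).natDegree => (algebraMap R L x) ^ (i : ℕ) := by
      funext i
      rw [map_pow]
    rw [h2]
    exact h1
  apply le_of_growth (d := d)
  intro t
  have h3 := lower_bound (K := K) (L := L) 𝒜 hy (fun i : Fin (minpoly A x).natDegree => x ^ (i : ℕ))
    (fun i => (i : ℕ)) (fun i => by
      have := SetLike.pow_mem_graded (i : ℕ) hx
      rwa [smul_eq_mul, mul_one] at this) hli t (hD t).1
  refine le_trans (le_of_eq ?_) (h3.trans (hD t).2)
  rw [Finset.sum_filter, Finset.sum_filter, Finset.sum_range]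

/-- **CUT.** -/
theorem cut {k A B : Type*} [Field k] [IsAlgClosed k] [CommRing A] [Algebra k A] [CommRing B]
    [IsDomain B] [Algebra k B] (𝒜 : ℕ → Submodule k A) [GradedAlgebra 𝒜]
    (ℬ : ℕ → Submodule k B) [GradedAlgebra ℬ] (π : A →ₐ[k] B)
    (hπ : ∀ t, ∀ a ∈ 𝒜 t, π a ∈ ℬ t) (hπ1 : ∀ b ∈ ℬ 1, ∃ a ∈ 𝒜 1, π a = b)
    (hAgen : Algebra.adjoin k (𝒜 1 : Set A) = ⊤)
    (hBgen : Algebra.adjoin k (ℬ 1 : Set B) = ⊤) (hfin : (ℬ 1).FG)
    {d : ℕ} {y : Fin (d + 1) → B} (hy : ∀ i, y i ∈ ℬ 1) (hind : AlgebraicIndependent k y)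
    (hint : ∀ b : B, IsIntegral (Algebra.adjoin k (Set.range y)) b)
    {D : ℕ} (hD : ∀ t, Module.Finite k (ℬ t) ∧
      Module.finrank k (ℬ t) ≤ ∑ i ∈ Finset.range D, (t + i + d).choose d)
    (x : A →ₐ[k] k) {a₀ : A} (ha₀ : π a₀ = 0) (hxa₀ : x a₀ ≠ 0) :
    ∃ e ≤ D, ∃ g ∈ 𝒜 e, π g = 0 ∧ x g ≠ 0 := by
  classical
  let S := MvPolynomial (Fin (d + 1)) k
  let _ : Algebra S B := (aeval y : S →ₐ[k] B).toRingHom.toAlgebra
  have hSB : ∀ p : S, algebraMap S B p = aeval y p := fun p => rfl
  have : IsScalarTower k S B := IsScalarTower.of_algebraMap_eq (fun c => by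
    rw [hSB, MvPolynomial.algebraMap_eq, algHom_C])
  have hinj : Function.Injective (algebraMap S B) := hind
  have : FaithfulSMul S B := (faithfulSMul_iff_algebraMap_injective S B).2 hinj
  have : Module.IsTorsionFree S B := inferInstance
  have hintS : ∀ x : B, IsIntegral S x := by
    intro x
    refine (hint x).map_of_comp_eq (hind.aevalEquiv.symm : _ →+* S) (RingHom.id B) ?_
    ext s
    simp only [RingHom.comp_apply, RingHom.id_apply]
    rw [hSB]
    have := hind.aevalEquiv.apply_symm_apply s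
    exact congrArg Subtype.val this
  have : Algebra.IsIntegral S B := ⟨hintS⟩
  have : Algebra.FiniteType k B := by
    refine ⟨?_⟩
    obtain ⟨s, hs⟩ := hfin
    refine ⟨s, ?_⟩
    rw [← Algebra.adjoin_span, hs, hBgen]
  have : Algebra.FiniteType S B := Algebra.FiniteType.of_restrictScalars_finiteType k S B
  have : Module.Finite S B := Algebra.IsIntegral.finite
  have hyS : ∀ i, algebraMap S B (X i) ∈ ℬ 1 := by
    intro i
    rw [hSB, aeval_X]
    exact hy i
  -- lifts of the parameters
  choose z hz hzy using fun i => hπ1 (y i) (hy i)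
  let c : S →ₐ[k] k := aeval (fun i => x (z i))
  -- the fibre over `c`
  let W₀ : Set (B →ₐ[k] k) := {w | ∀ s, w (algebraMap S B s) = c s}
  have hW₀ : W₀.Finite := finite_chars c
  let W : Set (A →ₐ[k] k) := (fun w : B →ₐ[k] k => w.comp π) '' W₀
  have hW : W.Finite := hW₀.image _
  have hxW : x ∉ W := by
    rintro ⟨w, -, rfl⟩
    apply hxa₀
    change w (π a₀) = 0
    rw [ha₀, map_zero]
  obtain ⟨ℓ, hℓ, hsep⟩ := exists_separating (𝒜 1) hAgen x W hW hxW
  have hπℓ : π ℓ ∈ ℬ 1 := hπ 1 ℓ hℓ
  set F := minpoly S (π ℓ) with hF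
  have hmonic : F.Monic := minpoly.monic (hintS _)
  have hdeg : F.natDegree ≤ D := natDegree_minpoly_le ℬ hyS hD hπℓ
  refine ⟨F.natDegree, hdeg, ∑ j ∈ Finset.range (F.natDegree + 1), aeval z (F.coeff j) * ℓ ^ j,
    ?_, ?_, ?_⟩
  · refine Submodule.sum_mem _ (fun j hj => ?_)
    rw [Finset.mem_range] at hj
    have h1 : (F.coeff j).IsHomogeneous (1 * (F.natDegree - j)) :=
      minpoly_coeff_homogeneous ℬ hyS hπℓ (hintS _) (Nat.lt_succ_iff.mp hj)
    rw [one_mul] at h1
    have h2 : aeval z (F.coeff j) ∈ 𝒜 (F.natDegree - j) := aeval_mem 𝒜 hz h1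
    have h3 : ℓ ^ j ∈ 𝒜 j := by
      have := SetLike.pow_mem_graded j hℓ
      rwa [smul_eq_mul, mul_one] at this
    have h4 := SetLike.mul_mem_graded h2 h3
    rwa [Nat.sub_add_cancel (by omega)] at h4
  · have h5 : Polynomial.aeval (π ℓ) F = 0 := minpoly.aeval S _
    rw [Polynomial.aeval_eq_sum_range] at h5
    rw [map_sum, ← h5]
    refine Finset.sum_congr rfl (fun j _ => ?_)
    rw [map_mul, map_pow, Algebra.smul_def, hSB]
    congr 1
    have h6 := MvPolynomial.map_aeval z (π : A →+* B) (F.coeff j)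
    have h7 : (fun i => (π : A →+* B) (z i)) = y := funext hzy
    rw [h7] at h6
    rw [show π (aeval z (F.coeff j)) = (π : A →+* B) (aeval z (F.coeff j)) from rfl, h6]
    have h9 : (π : A →+* B).comp (algebraMap k A) = algebraMap k B := by
      ext r
      simp
    rw [h9]
    rfl
  · intro h0
    have h8 : F.eval₂ (c : S →+* k) (x ℓ) = 0 := by
      rw [Polynomial.eval₂_eq_sum_range, ← h0, map_sum]
      refine Finset.sum_congr rfl (fun j _ => ?_)
      rw [map_mul, map_pow]
      congr 1
      have h6 := MvPolynomial.map_aeval z (x : A →+* k) (F.coeff j)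
      rw [show x (aeval z (F.coeff j)) = (x : A →+* k) (aeval z (F.coeff j)) from rfl, h6]
      change aeval (fun i => x (z i)) (F.coeff j) = _
      rw [aeval_def]
      congr 1
      ext r
      simp
    obtain ⟨w, hw, hwℓ⟩ := exists_char_of_root (k := k) (S := S) (B := B) (π ℓ) c (x ℓ) h8
    exact hsep (w.comp π) ⟨w, hw, rfl⟩ hwℓ.symm

end Vale.Agent.P271.Cut
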