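import Mathlib

/-!
# P271 / H58 / Drop : the dimension drops by exactly one

`A` is a noetherian domain over a field `k`, integral over the polynomial ring `k[y_i]`
(`y` algebraically independent), `P` is a prime ideal minimal over `(f)`, `f ≠ 0`. Then for some
`i` the classes of the `y_j`, `j ≠ i`, are algebraically independent in `A ⧸ P`.
-/

namespace Vale.Agent.P271.Drop

open MvPolynomial

/-- A nonconstant polynomial over a field involves some variable. -/
theorem exists_degreeOf_pos {k : Type*} [Field k] {σ : Type*} {g : MvPolynomial σ k}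
    (hg0 : g ≠ 0) (hg : ¬ IsUnit g) : ∃ i, 0 < degreeOf i g := by
  classical
  by_contra hcon
  push Not at hcon
  have hC : g = C (coeff 0 g) := by
    ext m
    rw [coeff_C]
    split_ifs with h
    · rw [h]
    · by_contra hne
      have hm : m ∈ g.support := mem_support_iff.mpr hne
      apply h
      ext i
      have h1 : m i ≤ degreeOf i g := by
        rw [degreeOf_eq_sup]
        exact Finset.le_sup (f := fun m : σ →₀ ℕ => m i) hm
      have h2 := hcon i
      simp only [Finsupp.coe_zero, Pi.zero_apply]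
      omega
  apply hg
  rw [hC]
  apply IsUnit.map
  rw [isUnit_iff_ne_zero]
  intro h0
  exact hg0 (by rw [hC, h0, map_zero])

theorem drop_core {k A : Type*} [Field k] [CommRing A] [IsDomain A] [IsNoetherianRing A]
    [Algebra k A] {σ : Type*} [Finite σ] (y : σ → A) (hy : AlgebraicIndependent k y)
    (hint : ∀ a : A, IsIntegral (Algebra.adjoin k (Set.range y)) a)
    {f : A} (hf : f ≠ 0) {P : Ideal A} (hP : P ∈ (Ideal.span {f}).minimalPrimes) :
    ∃ i, AlgebraicIndependent k (fun j : {j : σ // j ≠ i} => Ideal.Quotient.mk P (y j)) := by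
  classical
  have hPprime : P.IsPrime := hP.1.1
  let algS : Algebra (MvPolynomial σ k) A := (aeval y : MvPolynomial σ k →ₐ[k] A).toRingHom.toAlgebra
  have halg : ∀ q : MvPolynomial σ k, algebraMap (MvPolynomial σ k) A q = aeval y q := fun _ => rfl
  have hinj : Function.Injective (algebraMap (MvPolynomial σ k) A) := hy
  have : FaithfulSMul (MvPolynomial σ k) A := (faithfulSMul_iff_algebraMap_injective _ _).mpr hinj
  have : Algebra.IsIntegral (MvPolynomial σ k) A := by
    refine ⟨fun a => ?_⟩
    obtain ⟨p, hpm, hp⟩ := hint a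
    -- lift the coefficients
    have hrange : (aeval y : MvPolynomial σ k →ₐ[k] A).range = Algebra.adjoin k (Set.range y) :=
      (Algebra.adjoin_range_eq_range_aeval k y).symm
    have hint' : IsIntegral (aeval y : MvPolynomial σ k →ₐ[k] A).range a := by
      rw [hrange]; exact ⟨p, hpm, hp⟩
    obtain ⟨p', hpm', hp'⟩ := hint'
    let ρ : MvPolynomial σ k →+* (aeval y : MvPolynomial σ k →ₐ[k] A).range :=
      ((aeval y : MvPolynomial σ k →ₐ[k] A).rangeRestrict).toRingHom
    have hsurj : Function.Surjective ρ :=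
      (aeval y : MvPolynomial σ k →ₐ[k] A).rangeRestrict_surjective
    have hlift : p' ∈ Polynomial.lifts ρ := by
      rw [Polynomial.lifts_iff_coeff_lifts]
      exact fun n => hsurj _
    obtain ⟨q, hq, -, hqm⟩ := Polynomial.lifts_and_natDegree_eq_and_monic hlift hpm'
    refine ⟨q, hqm, ?_⟩
    rw [← hq, Polynomial.eval₂_map] at hp'
    exact hp'
  -- the contraction
  set p : Ideal (MvPolynomial σ k) := P.under (MvPolynomial σ k) with hpdef
  have : p.IsPrime := by rw [hpdef]; infer_instance
  have : P.LiesOver p := ⟨rfl⟩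
  have hfP : f ∈ P := hP.1.2 (Ideal.mem_span_singleton_self f)
  have hpbot : p ≠ ⊥ := by
    rw [hpdef]
    exact Ideal.comap_ne_bot_of_integral_mem hf hfP (Algebra.IsIntegral.isIntegral f)
  have hheight : p.height ≤ 1 := by
    have h1 : P.height ≤ 1 :=
      Ideal.height_le_one_of_isPrincipal_of_mem_minimalPrimes (Ideal.span {f}) P hP
    have h2 := Ideal.height_eq_height_add_of_liesOver_of_hasGoingDown p P
    rw [h2] at h1
    exact le_trans le_self_add h1
  have hheight1 : p.height = 1 := by
    apply le_antisymm hheight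
    rw [Order.one_le_iff_ne_zero]
    intro h0
    exact hpbot (Ideal.height_eq_zero_iff_eq_bot.mp h0)
  obtain ⟨g, hgp, hg⟩ := Ideal.IsPrime.exists_mem_prime_of_ne_bot ‹p.IsPrime› hpbot
  have hpg : p = Ideal.span {g} := Ideal.eq_span_singleton_of_height_eq_one hheight1 hgp hg
  obtain ⟨i, hi⟩ := exists_degreeOf_pos hg.ne_zero hg.not_isUnit
  refine ⟨i, ?_⟩
  rw [algebraicIndependent_iff]
  intro q hq
  -- `rename q ∈ p`
  have hmem : rename (Subtype.val : {j // j ≠ i} → σ) q ∈ p := by
    rw [hpdef]
    change algebraMap (MvPolynomial σ k) A (rename _ q) ∈ P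
    rw [halg, aeval_rename, ← Ideal.Quotient.eq_zero_iff_mem]
    have h3 : Ideal.Quotient.mk P ((aeval (y ∘ (Subtype.val : {j // j ≠ i} → σ))) q) =
        aeval (fun j : {j : σ // j ≠ i} => Ideal.Quotient.mk P (y j)) q := by
      have := MvPolynomial.map_aeval (y ∘ (Subtype.val : {j // j ≠ i} → σ))
        (Ideal.Quotient.mk P) q
      rw [this]
      rfl
    rw [h3, hq]
  rw [hpg, Ideal.mem_span_singleton] at hmem
  obtain ⟨h, hh⟩ := hmem
  by_contra hq0
  have hren0 : rename (Subtype.val : {j // j ≠ i} → σ) q ≠ 0 := by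
    intro h0
    apply hq0
    have := rename_injective _ (Subtype.val_injective (p := fun j => j ≠ i)) (a₁ := q) (a₂ := 0)
      (by rw [h0, map_zero])
    exact this
  have hh0 : h ≠ 0 := by
    rintro rfl
    rw [mul_zero] at hh
    exact hren0 hh
  have hdeg0 : degreeOf i (rename (Subtype.val : {j // j ≠ i} → σ) q) = 0 := by
    by_contra hne
    have h4 : 0 < degreeOf i (rename (Subtype.val : {j // j ≠ i} → σ) q) := Nat.pos_of_ne_zero hne
    have h5 : i ∈ (rename (Subtype.val : {j // j ≠ i} → σ) q).vars := by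
      rw [mem_vars_iff_mem_support]
      rw [degreeOf_eq_sup] at h4
      obtain ⟨m, hm, hm'⟩ := (Finset.lt_sup_iff).mp h4
      exact ⟨m, hm, by rw [Finsupp.mem_support_iff]; omega⟩
    have h6 := vars_rename _ _ h5
    rw [Finset.mem_image] at h6
    obtain ⟨j, -, hj⟩ := h6
    exact j.2 hj
  have hmul := degreeOf_mul_eq (n := i) hg.ne_zero hh0
  rw [← hh, hdeg0] at hmul
  omega

end Vale.Agent.P271.Drop
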